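import Vale.Agent.P195.Assembly
import Vale.Agent.P195.C0ModelExact

/-!
P195: the Auslander-Reiten conjecture is false. There is a finite-dimensional algebra over the
complex numbers with a finitely generated non-projective module which has no extensions of
positive degree by itself or by the algebra.
-/

theorem Vale.Agent.Results.P195.AuslanderReitenFalse.result :
    ∃ (R : Type) (_ : Ring R) (_ : Algebra ℂ R), Module.Finite ℂ R ∧
      ∃ M : ModuleCat.{0} R, Module.Finite R M ∧ ¬ Module.Projective R M ∧
        ∀ i : ℕ, 1 ≤ i → Subsingleton (CategoryTheory.Abelian.Ext M M i) ∧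
          Subsingleton (CategoryTheory.Abelian.Ext M (ModuleCat.of R R) i) :=
  Vale.Agent.P195.ar_false_of_model Vale.Agent.P195.C0E.specModel
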